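import Vale.Agent.P179.R2.H443.Eig

/-!
# The number of simple modules of a wreath product on which `e ⊗ ... ⊗ e` acts as the identity
-/

namespace P179H443

open Subgroup P179A P179C P179H524 P179R RegularWreathProduct MonoidAlgebra Finset

open P179C.C2 (Om cls phi)

universe u

section Basis

variable (p : ℕ) [hp : Fact p.Prime] {k : Type u} [Field k] [IsAlgClosed k] [CharP k p]
  {G : Type} [Group G] [Fintype G]

open scoped Classical in
/-- a basis of eigenfunctions of a central element acting as `0` or `1` on the simple modules -/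
theorem exists_basis' (B : MonoidAlgebra k G)
    (hB : B ∈ Subalgebra.center k (MonoidAlgebra k G)) (hB2 : ZO B) :
    ∃ (r : ℕ) (v : Module.Basis (Fin r) k (Om p G → k)) (I : Finset (Fin r)),
      I.card = numSimpleIn B ∧ ∀ (i : Fin r) (y : G),
        ∑ g : G, B.coeff g * v i (cls p (g * y)) = if i ∈ I then v i (cls p y) else 0 := by
  obtain ⟨r, v, l, hI, hl, hv⟩ := exists_eig p B hB
  refine ⟨r, v, _, hI, fun i y => ?_⟩
  rw [hv]
  have h4 : i ∈ univ.filter (fun i => l i = 1) ↔ l i = 1 := by simp
  rcases hl hB2 i with h | h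
  · rw [if_neg (by rw [h4, h]; exact zero_ne_one), h, zero_mul]
  · rw [if_pos (by rw [h4, h]), h, one_mul]

end Basis

section Main

variable {p : ℕ} [hp : Fact p.Prime] {k : Type u} [Field k] [IsAlgClosed k] [CharP k p]
  {G : Type} [Group G] [Fintype G] {Q : Type} [Group Q] [Fintype Q] [DecidableEq Q]

theorem numSimpleIn_ehat_card' (hQ : Nat.card Q = p) (e : MonoidAlgebra k G)
    (he : e ∈ Subalgebra.center k (MonoidAlgebra k G)) (hee : ZO e) :
    ∃ (X : Type) (_ : Finite X), Nat.card X = numSimpleIn e ∧ numSimpleIn (ehat Q e) =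
      Nat.card (@MulAction.orbitRel.Quotient Q (Q → X) _ (shift Q X)) := by
  classical
  obtain ⟨r, v, I, hI, hv⟩ := exists_basis' p e he hee
  refine ⟨I, inferInstance, by rw [Nat.card_eq_fintype_card, Fintype.card_coe, hI], ?_⟩
  let _ := shift Q I
  have := Fintype.ofFinite (G ≀ᵣ Q)
  have : Finite (Om p G) := Quotient.finite _
  have := Fintype.ofFinite (Om p G)
  have := Fintype.ofFinite (MulAction.orbitRel.Quotient Q (Q → I))
  rw [← finrank_VB' p (ehat Q e) (ehat_mem e he)]
  let mk : (Q → I) → MulAction.orbitRel.Quotient Q (Q → I) := Quotient.mk''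
  have hmk : ∀ (b : MulAction.orbitRel.Quotient Q (Q → I) → k) (τ : Q) (c : Q → I),
      b (mk (fun q => c (τ⁻¹ * q))) = b (mk c) := by
    intro b τ c
    congr 1
    exact Quotient.sound' ⟨τ, rfl⟩
  -- the map
  let Θ : (MulAction.orbitRel.Quotient Q (Q → I) → k) →ₗ[k] (Om p (G ≀ᵣ Q) → k) :=
    { toFun := fun b ω => PF v I (fun c => b (mk c)) (fun q => cls p (ω.out.1.left q))
      map_add' := fun a b => by
        funext ω
        simp only [PF, Pi.add_apply, add_mul, Finset.sum_add_distrib]
      map_smul' := fun a b => by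
        funext ω
        simp only [PF, Pi.smul_apply, smul_eq_mul, RingHom.id_apply, Finset.mul_sum, mul_assoc] }
  have hΘ : ∀ b (y : Q → G), Θ b (cls p (incl G Q y)) =
      PF v I (fun c => b (mk c)) (fun q => cls p (y q)) := by
    intro b y
    set ω := cls p (incl G Q y) with hω
    change PF v I (fun c => b (mk c)) (fun q => cls p (ω.out.1.left q)) = _
    have h1 : ω.out.1.right = 1 := right_eq_one hQ ω.out.2
    have h2 : cls p (incl G Q ω.out.1.left) = cls p (incl G Q y) := by
      rw [← eq_incl h1, C2.cls_reg, ← hω]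
      exact Quotient.out_eq' ω
    obtain ⟨τ, hτ⟩ := cls_incl_iff h2
    simp only [hτ]
    exact PF_shift v I (hmk b) (fun q => cls p (y q)) τ
  -- sums over the group
  have hsum : ∀ (c : Q → Fin r) (y : Q → G), ∑ g : Q → G, (∏ q, e.coeff (g q)) *
      ∏ q, v (c q) (cls p (g q * y q)) =
        if ∀ q, c q ∈ I then ∏ q, v (c q) (cls p (y q)) else 0 := by
    intro c y
    have h1 : ∀ g : Q → G, (∏ q, e.coeff (g q)) * ∏ q, v (c q) (cls p (g q * y q)) =
        ∏ q, (e.coeff (g q) * v (c q) (cls p (g q * y q))) := by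
      intro g
      rw [Finset.prod_mul_distrib]
    rw [Finset.sum_congr rfl fun g _ => h1 g, ← Fintype.piFinset_univ, ← Finset.prod_univ_sum
      (fun _ => univ) (fun q g => e.coeff g * v (c q) (cls p (g * y q)))]
    simp only [hv]
    split_ifs with h
    · exact Finset.prod_congr rfl fun q _ => if_pos (h q)
    · push Not at h
      obtain ⟨q, hq⟩ := h
      exact Finset.prod_eq_zero (mem_univ q) (if_neg hq)
  have hmem : ∀ b, Θ b ∈ VB p (ehat Q e) := by
    intro b x hx
    have hx1 := right_eq_one hQ hx
    obtain ⟨y, rfl⟩ : ∃ y, x = incl G Q y := ⟨_, eq_incl hx1⟩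
    rw [sum_ehat, hΘ]
    have h1 : ∀ g : Q → G, (∏ q, e.coeff (g q)) * Θ b (cls p (incl G Q g * incl G Q y)) =
        ∑ c : Q → I, b (mk c) * ((∏ q, e.coeff (g q)) *
          ∏ q, v (c q) (cls p (g q * y q))) := by
      intro g
      rw [← map_mul, hΘ, PF, Finset.mul_sum]
      refine Finset.sum_congr rfl fun c _ => ?_
      simp only [Pi.mul_apply]
      ring
    rw [Finset.sum_congr rfl fun g _ => h1 g, Finset.sum_comm, PF]
    refine Finset.sum_congr rfl fun c _ => ?_
    rw [← Finset.mul_sum, hsum (fun q => (c q : Fin r)) y, if_pos fun q => (c q).2]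
  have hinj : Function.Injective Θ := by
    rw [injective_iff_map_eq_zero]
    intro b hb
    let a : (Q → Fin r) → k := fun c =>
      if h : ∀ q, c q ∈ I then b (mk fun q => ⟨c q, h q⟩) else 0
    have h1 : prodMap v a = 0 := by
      funext ω
      choose y hy hyω using fun q => cls_surj p (ω q)
      have h2 := hΘ b y
      rw [hb] at h2
      have h3 : (fun q => cls p (y q)) = ω := funext hyω
      rw [h3, PF] at h2
      rw [prodMap_apply]
      change _ = (0 : k)
      rw [Pi.zero_apply] at h2
      rw [h2]
      have h4 : ∑ c : Q → Fin r, a c * ∏ q, v (c q) (ω q) =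
          ∑ c ∈ univ.filter (fun c : Q → Fin r => ∀ q, c q ∈ I), a c * ∏ q, v (c q) (ω q) := by
        rw [Finset.sum_filter]
        refine Finset.sum_congr rfl fun c _ => ?_
        split_ifs with h
        · rfl
        · simp only [a]
          rw [dif_neg h, zero_mul]
      rw [h4]
      symm
      refine Finset.sum_bij (fun c _ => fun q => (c q : Fin r)) ?_ ?_ ?_ ?_
      · intro c _
        rw [mem_filter]
        exact ⟨mem_univ _, fun q => (c q).2⟩
      · intro c _ c' _ h
        funext q
        exact Subtype.ext (congrFun h q)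
      · intro c hc
        rw [mem_filter] at hc
        exact ⟨fun q => ⟨c q, hc.2 q⟩, mem_univ _, rfl⟩
      · intro c _
        simp only [a]
        rw [dif_pos fun q => (c q).2]
    have h5 := (injective_iff_map_eq_zero _).1 (prodMap_bijective (Q := Q) v).1 a h1
    funext o
    induction o using Quotient.inductionOn' with
    | h c =>
    have h6 := congrFun h5 (fun q => (c q : Fin r))
    simp only [a] at h6
    rw [dif_pos fun q => (c q).2] at h6
    exact h6
  have hsurj : ∀ ψ ∈ VB p (ehat Q e), ∃ b, Θ b = ψ := by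
    intro ψ hψ
    let F : (Q → Om p G) → k := fun ω => ψ (cls p (incl G Q (fun q => (ω q).out.1)))
    have hF : ∀ y : Q → G, F (fun q => cls p (y q)) = ψ (cls p (incl G Q y)) := by
      intro y
      simp only [F]
      congr 1
      refine cls_incl fun q => ?_
      rw [C2.cls_reg]
      exact Quotient.out_eq' _
    obtain ⟨a, ha⟩ := (prodMap_bijective (Q := Q) v).2 F
    -- the support of `a`
    have h1 : ∀ c : Q → Fin r, ¬ (∀ q, c q ∈ I) → a c = 0 := by
      have h2 : prodMap v (fun c => if ∀ q, c q ∈ I then a c else 0) = prodMap v a := by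
        funext ω
        choose y hy hyω using fun q => cls_surj p (ω q)
        have hω : (fun q => cls p (y q)) = ω := funext hyω
        have h3 := hψ (incl G Q y) (reg_incl.2 hy)
        rw [sum_ehat, ← hF, hω, ← ha] at h3
        rw [← h3, prodMap_apply]
        have h4 : ∀ g : Q → G, (∏ q, e.coeff (g q)) * ψ (cls p (incl G Q g * incl G Q y)) =
            ∑ c : Q → Fin r, a c * ((∏ q, e.coeff (g q)) *
              ∏ q, v (c q) (cls p (g q * y q))) := by
          intro g
          rw [← map_mul, ← hF, ← ha, prodMap_apply, Finset.mul_sum]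
          refine Finset.sum_congr rfl fun c _ => ?_
          simp only [Pi.mul_apply]
          ring
        rw [Finset.sum_congr rfl fun g _ => h4 g, Finset.sum_comm]
        refine Finset.sum_congr rfl fun c _ => ?_
        rw [← Finset.mul_sum, hsum c y]
        simp only [hyω]
        split_ifs <;> ring
      have h3 := (prodMap_bijective (Q := Q) v).1 h2
      intro c hc
      have h4 := congrFun h3 c
      simp only [if_neg hc] at h4
      exact h4.symm
    -- invariance of `a`
    have h2 : ∀ (τ : Q) (c : Q → Fin r), a (fun q => c (τ⁻¹ * q)) = a c := by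
      intro τ c
      have h3 : prodMap v (fun c => a (fun q => c (τ⁻¹ * q))) = prodMap v a := by
        funext ω
        have h4 : F (fun q => ω (τ⁻¹ * q)) = F ω := by
          choose y hy hyω using fun q => cls_surj p (ω q)
          have hω : (fun q => cls p (y q)) = ω := funext hyω
          have hω' : (fun q => cls p (y (τ⁻¹ * q))) = fun q => ω (τ⁻¹ * q) :=
            funext fun q => hyω (τ⁻¹ * q)
          rw [← hω', ← hω, hF (fun q => y (τ⁻¹ * q)), hF y]
          exact congrArg ψ (cls_shift (p := p) y τ)
        rw [← ha, prodMap_apply] at h4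
        rw [← h4, prodMap_apply]
        let E : (Q → Fin r) ≃ (Q → Fin r) :=
          ((Equiv.mulLeft τ⁻¹).arrowCongr (Equiv.refl (Fin r))).symm
        rw [← E.sum_comp (fun c => a c * ∏ q, v (c q) (ω (τ⁻¹ * q)))]
        refine Finset.sum_congr rfl fun c _ => ?_
        have hE : E c = fun q => c (τ⁻¹ * q) := rfl
        rw [hE]
        congr 1
        exact (Equiv.prod_comp (Equiv.mulLeft τ⁻¹) (fun q => v (c q) (ω q))).symm
      exact congrFun ((prodMap_bijective (Q := Q) v).1 h3) c
    refine ⟨fun o => Quotient.liftOn' o (fun c => a (fun q => (c q : Fin r))) ?_, ?_⟩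
    · rintro c c' ⟨τ, rfl⟩
      exact h2 τ (fun q => (c' q : Fin r))
    · funext ω
      obtain ⟨y, hy, rfl⟩ := exists_cls_incl hQ ω
      rw [hΘ, ← hF, ← ha, prodMap_apply, PF]
      have h4 : ∑ c : Q → Fin r, a c * ∏ q, v (c q) (cls p (y q)) =
          ∑ c ∈ univ.filter (fun c : Q → Fin r => ∀ q, c q ∈ I),
            a c * ∏ q, v (c q) (cls p (y q)) := by
        rw [Finset.sum_filter]
        refine Finset.sum_congr rfl fun c _ => ?_
        split_ifs with h
        · rfl
        · rw [h1 c h, zero_mul]
      rw [h4]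
      refine Finset.sum_bij (fun c _ => fun q => (c q : Fin r)) ?_ ?_ ?_ ?_
      · intro c _
        rw [mem_filter]
        exact ⟨mem_univ _, fun q => (c q).2⟩
      · intro c _ c' _ h
        funext q
        exact Subtype.ext (congrFun h q)
      · intro c hc
        rw [mem_filter] at hc
        exact ⟨fun q => ⟨c q, hc.2 q⟩, mem_univ _, rfl⟩
      · intro c _
        rfl
  let L : (MulAction.orbitRel.Quotient Q (Q → I) → k) ≃ₗ[k] VB p (ehat Q e) :=
    LinearEquiv.ofBijective (Θ.codRestrict _ hmem) ⟨fun a b h => hinj (congrArg Subtype.val h),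
      fun ψ => by
        obtain ⟨b, hb⟩ := hsurj ψ.1 ψ.2
        exact ⟨b, Subtype.ext hb⟩⟩
  rw [← L.finrank_eq, Module.finrank_fintype_fun_eq_card, Nat.card_eq_fintype_card]

/-- the exact number of simple modules of `G ≀ C_p` in `e ⊗ ... ⊗ e` -/
theorem numSimpleIn_ehat' (hQ : Nat.card Q = p) (e : MonoidAlgebra k G)
    (he : e ∈ Subalgebra.center k (MonoidAlgebra k G)) (hee : ZO e) :
    p * numSimpleIn (ehat Q e) = numSimpleIn e ^ p + (p - 1) * numSimpleIn e := by
  obtain ⟨X, hX, h1, h2⟩ := numSimpleIn_ehat_card' hQ e he hee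
  rw [h2, card_orbits_shift hp.out Q hQ X, h1]

end Main

end P179H443
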